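import Vale.Agent.P144C.O.Ref

/-!
Sign changes at corners: the reference solution.
-/

namespace Vale.Agent.P144C.O

open Finset Matrix Vale.Agent.P144Z Vale.Agent.P144L P144L.G P144L.R IN5a

section

variable {M : ℕ} [NeZero M] {A : Gauge M} {z : Tor M} {φ φ₀ : Tor M × Fin 4 → ℝ} {K s₁ ρ : ℕ}
  {C D : ℝ}

theorem hom_sub {R : ℕ} (h : Hom A z R φ) (h0 : Hom A z R φ₀) (t : ℝ) :
    Hom A z R (φ - t • φ₀) := fun x hx => by
  rw [mulVec_sub, mulVec_smul, Pi.sub_apply, Pi.smul_apply, h x hx, h0 x hx, smul_zero, sub_zero]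

theorem sq_le (φ : Tor M × Fin 4 → ℝ) (z : Tor M) (a : Fin 4) (s : ℕ) : φ (z, a) ^ 2 ≤ l2 z φ s :=
  (single_le_sum (f := fun b => φ (z, b) ^ 2) (fun _ _ => sq_nonneg _) (mem_univ a)).trans
    (single_le_sum (f := fun x => ∑ b, φ (x, b) ^ 2) (fun _ _ => sum_nonneg fun _ _ => sq_nonneg _)
      (E3.mem_ball.2 (by rw [tdist_self]; omega)))

theorem l2_le (φ φ₀ : Tor M × Fin 4 → ℝ) (t : ℝ) (s : ℕ) :
    l2 z φ s ≤ 2 * l2 z (φ - t • φ₀) s + 2 * (t ^ 2 * l2 z φ₀ s) ∧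
      t ^ 2 * l2 z φ₀ s ≤ 2 * l2 z φ s + 2 * l2 z (φ - t • φ₀) s := by
  have h1 := E4.l2sq_add_le (ball z s) (φ - t • φ₀) (t • φ₀)
  have h2 := E4.l2sq_add_le (ball z s) φ ((-1 : ℝ) • (φ - t • φ₀))
  rw [sub_add_cancel, E4.l2sq_smul] at h1
  rw [E4.l2sq_smul, neg_one_smul, ← sub_eq_add_neg, sub_sub_cancel, E4.l2sq_smul] at h2
  exact ⟨h1, by linarith⟩

/-- The iteration over the scales. -/
theorem iter (hK : 1 ≤ K) (h0 : Hom A z ρ φ₀) (hp : ∀ s, 0 < l2 z φ₀ s)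
    (hS : ∀ s, s₁ ≤ s → K * s ≤ ρ → ∀ φ, Hom A z (K * s) φ →
      l2 z φ s * l2 z φ₀ (K * s) ≤ C * l2 z φ₀ s * l2 z φ (K * s) ∧ ∃ t : ℝ,
        l2 z (φ - t • φ₀) s * l2 z φ₀ (K * s) ≤ 1 / 4 * l2 z φ₀ s * l2 z φ (K * s))
    (hC : 0 ≤ C) {s : ℕ} (hs : s₁ ≤ s) (m : ℕ) : K ^ m * s ≤ ρ → ∀ φ, Hom A z (K ^ m * s) φ →
      ∃ τ : ℝ, τ ^ 2 * l2 z φ₀ (K ^ m * s) ≤ (8 * C + 2) * l2 z φ (K ^ m * s) ∧
        l2 z (φ - τ • φ₀) s * l2 z φ₀ (K ^ m * s) ≤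
          (1 / 4) ^ m * l2 z φ₀ s * l2 z φ (K ^ m * s) := by
  induction m with
  | zero =>
    intro _ φ _
    have := E3.l2sq_nonneg (ball z s) φ
    refine ⟨0, ?_, ?_⟩ <;> simp only [pow_zero, one_mul, zero_smul, sub_zero]
    · rw [zero_pow two_ne_zero, zero_mul]
      positivity
    · rw [mul_comm]
  | succ m ih =>
    rw [pow_succ' K, mul_assoc]
    have x1 : s ≤ K ^ m * s := Nat.le_mul_of_pos_left _ (pow_pos hK m)
    generalize K ^ m * s = T at ih x1 ⊢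
    intro h1 φ hφ
    have x2 : T ≤ K * T := Nat.le_mul_of_pos_left _ hK
    obtain ⟨k1, t, k2⟩ := hS T (by omega) h1 φ hφ
    obtain ⟨τ, k3, k4⟩ := ih (by omega) (φ - t • φ₀)
      (hom_sub (fun x hx => hφ x (by omega)) (fun x hx => h0 x (by omega)) t)
    have p0 := hp (K * T)
    have f0 := E3.l2sq_nonneg (ball z (K * T)) φ
    have e1 : t ^ 2 * l2 z φ₀ (K * T) ≤ (2 * C + 1 / 2) * l2 z φ (K * T) := by
      refine le_of_mul_le_mul_right ?_ (hp T)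
      linarith [mul_le_mul_of_nonneg_right (l2_le (z := z) φ φ₀ t T).2 p0.le]
    have e2 : τ ^ 2 * l2 z φ₀ (K * T) ≤ (2 * C + 1 / 2) * l2 z φ (K * T) := by
      refine le_of_mul_le_mul_right ?_ (hp T)
      linarith [mul_le_mul_of_nonneg_right k3 p0.le,
        mul_le_mul_of_nonneg_left k2 (by linarith : 0 ≤ 8 * C + 2)]
    refine ⟨t + τ, ?_, ?_⟩
    · have : (t + τ) ^ 2 ≤ 2 * t ^ 2 + 2 * τ ^ 2 := by nlinarith [sq_nonneg (t - τ)]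
      linarith [mul_le_mul_of_nonneg_right this p0.le]
    · rw [add_smul, ← sub_sub]
      refine le_of_mul_le_mul_right ?_ (hp T)
      have e3 := mul_le_mul_of_nonneg_right k4 p0.le
      have e4 := mul_le_mul_of_nonneg_left k2
        (mul_nonneg (by positivity : (0 : ℝ) ≤ (1 / 4) ^ m) (hp s).le)
      rw [pow_succ]
      linarith

/-- All pairs of scales. -/
theorem gen (hK : 2 ≤ K) (h0 : Hom A z ρ φ₀) (hp : ∀ s, 0 < l2 z φ₀ s)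
    (hS : ∀ s, s₁ ≤ s → K * s ≤ ρ → ∀ φ, Hom A z (K * s) φ →
      l2 z φ s * l2 z φ₀ (K * s) ≤ C * l2 z φ₀ s * l2 z φ (K * s) ∧ ∃ t : ℝ,
        l2 z (φ - t • φ₀) s * l2 z φ₀ (K * s) ≤ 1 / 4 * l2 z φ₀ s * l2 z φ (K * s))
    (hC : 0 ≤ C) (hD : 0 ≤ D) (h1 : 1 ≤ s₁) (hl : ∀ s σ, s₁ ≤ s → s ≤ σ → σ ≤ ρ →
      l2 z φ₀ σ * (s : ℝ) ^ 3 ≤ D * (σ : ℝ) ^ 3 * l2 z φ₀ s) {s σ n : ℕ} (hs : s₁ ≤ s)
    (hσ : K ^ n * s ≤ σ) (hρ : σ ≤ ρ) (hφ : Hom A z σ φ) :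
    ∃ τ : ℝ, τ ^ 2 * l2 z φ₀ σ ≤ D * K ^ 3 * ((8 * C + 2) * l2 z φ σ) ∧
      l2 z (φ - τ • φ₀) s * l2 z φ₀ σ ≤ D * K ^ 3 * ((1 / 4) ^ n * l2 z φ₀ s * l2 z φ σ) := by
  obtain ⟨m, m1, m2, m3⟩ : ∃ m, K ^ m * s ≤ σ ∧ σ ≤ K * (K ^ m * s) ∧ n ≤ m := by
    have x1 : K ^ n ≤ σ / s := (Nat.le_div_iff_mul_le (by omega)).2 hσ
    have x2 : σ / s ≠ 0 := ((pow_pos (by omega) n).trans_le x1).ne'
    refine ⟨Nat.log K (σ / s), (Nat.le_div_iff_mul_le (by omega)).1 (Nat.pow_log_le_self K x2),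
      ?_, Nat.le_log_of_pow_le (by omega) x1⟩
    rw [← mul_assoc, ← pow_succ']
    exact ((Nat.div_lt_iff_lt_mul (by omega)).1 (Nat.lt_pow_succ_log_self (by omega) _)).le
  obtain ⟨τ, k1, k2⟩ := iter (by omega) h0 hp hS hC hs m (by omega) φ fun x hx => hφ x (by omega)
  have x1 : s ≤ K ^ m * s := Nat.le_mul_of_pos_left _ (pow_pos (by omega) m)
  generalize K ^ m * s = T at m1 m2 k1 k2 x1
  have T0 : (0 : ℝ) < T := by exact_mod_cast (by omega : 0 < T)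
  have e1 : l2 z φ₀ σ ≤ D * K ^ 3 * l2 z φ₀ T := by
    refine le_of_mul_le_mul_right ((hl T σ (by omega) m1 hρ).trans ?_) (pow_pos T0 3)
    have : (σ : ℝ) ≤ K * T := by exact_mod_cast m2
    exact (mul_le_mul_of_nonneg_right (mul_le_mul_of_nonneg_left
      (pow_le_pow_left₀ (Nat.cast_nonneg _) this 3) hD) (hp T).le).trans_eq (by ring)
  have e2 : l2 z φ T ≤ l2 z φ σ := E3.l2sq_mono (E3.ball_mono z m1) _
  have e3 : 0 ≤ D * K ^ 3 := by positivity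
  refine ⟨τ, ?_, ?_⟩
  · refine (mul_le_mul_of_nonneg_left e1 (sq_nonneg τ)).trans ?_
    rw [mul_left_comm]
    exact mul_le_mul_of_nonneg_left (k1.trans (mul_le_mul_of_nonneg_left e2 (by linarith))) e3
  · refine (mul_le_mul_of_nonneg_left e1 (E3.l2sq_nonneg _ _)).trans ?_
    rw [mul_left_comm]
    refine mul_le_mul_of_nonneg_left (k2.trans (mul_le_mul (mul_le_mul_of_nonneg_right
      (pow_le_pow_of_le_one (by norm_num) (by norm_num) m3) (hp s).le) e2 (E3.l2sq_nonneg _ _)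
      (mul_nonneg (by positivity) (hp s).le))) e3

/-- The coefficient is the value at the mark. -/
theorem center {a : Fin 4} {s₀ s : ℕ} (h1 : φ₀ (z, a) = 1) (h2 : l2 z φ₀ s₀ ≤ D) (hC : 0 ≤ C)
    (t : ℝ) (h3 : l2 z (φ - t • φ₀) s₀ * l2 z φ₀ s ≤ C * l2 z φ₀ s₀ * l2 z (φ - t • φ₀) s) :
    l2 z (φ - φ (z, a) • φ₀) s ≤ (2 + 2 * (C * D)) * l2 z (φ - t • φ₀) s := by
  have k1 := E4.l2sq_add_le (ball z s) (φ - t • φ₀) ((-(φ - t • φ₀) (z, a)) • φ₀)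
  have k2 : φ - t • φ₀ + (-(φ - t • φ₀) (z, a)) • φ₀ = φ - φ (z, a) • φ₀ := by
    rw [Pi.sub_apply, Pi.smul_apply, smul_eq_mul, h1, mul_one, neg_smul, sub_smul]
    abel
  rw [k2, E4.l2sq_smul, neg_sq] at k1
  have k3 := mul_le_mul_of_nonneg_right (sq_le (φ - t • φ₀) z a s₀) (E3.l2sq_nonneg (ball z s) φ₀)
  have k4 := mul_le_mul_of_nonneg_right (mul_le_mul_of_nonneg_left h2 hC)
    (E3.l2sq_nonneg (ball z s) (φ - t • φ₀))
  linarith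

end

/-- The reference solution, with the changes of scale. -/
theorem homX (hMo : ModM) (hO : OneM) (hLo : LowM) (hNr : NrmM) (hNd : NdM) (hRf : RefM) (N : ℕ) :
    ∃ (Q s₀ : ℕ) (C : ℝ) (Kf : ℝ → ℕ), 8 ≤ s₀ ∧ 1 ≤ C ∧ 1 ≤ Q ∧ ∀ η > (0 : ℝ), ∃ K s₁ : ℕ, 2 ≤ K ∧
    ∀ (M : ℕ) [NeZero M] (I : Finset (Tor M)) (r : ℕ) (z : Tor M) (a : Fin 4) (ν : ℂ) (ρ : ℕ),
    MkT2 I N r z a ν → 64 * (tdist z 0 + r) ≤ M → s₀ ≤ ρ → Q * ρ ≤ r →
      ∃ φ₀, Rf (pwI I) (z, a) φ₀ s₀ ρ C Kf ∧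
        ∀ s, s₁ ≤ s → K * s ≤ ρ → Stp I z ν φ₀ Q K s C η := by
  obtain ⟨Q₂, hQ₂, hO⟩ := one2 hMo hO N
  obtain ⟨Qd, hD⟩ := dec2 hMo N
  obtain ⟨Ql, ρl, Cl, hCl, hQl, hL⟩ := lowN hLo hNr
  obtain ⟨Q, ρ₀, γ, γ0, hQ, hN⟩ := nd hLo hNr hNd hRf N (Q₂ + Ql + Qd)
  obtain ⟨C, hC, hO⟩ := hO γ γ0
  obtain ⟨K, s₁, hK, hO1⟩ := hO (1 / 4) (by norm_num)
  obtain ⟨s₀, hs₀⟩ : ∃ s₀, s₀ = ρ₀ + ρl + s₁ + 8 := ⟨_, rfl⟩
  obtain ⟨c, c0, hN⟩ := hN s₀ (by omega)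
  obtain ⟨D, hD'⟩ : ∃ D : ℝ, D = Cl / γ * K ^ 3 := ⟨_, rfl⟩
  have D0 : 0 ≤ D := by rw [hD']; positivity
  obtain ⟨Cs, hCs⟩ : ∃ Cs : ℝ, Cs = 2 * D + 2 * (D * (8 * C + 2)) := ⟨_, rfl⟩
  have s0 : 0 ≤ Cs := by rw [hCs]; positivity
  have b0 : 0 ≤ s₀ / (γ * c) := by positivity
  have l0 : 0 ≤ Cl / γ := by positivity
  choose! Kd hD using hD
  choose! n hn using fun η (h : η > (0 : ℝ)) => exists_pow_lt_of_lt_one
    (div_pos h (by positivity : 0 < (2 + 2 * (Cs * (s₀ / (γ * c)))) * D + 1))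
    (by norm_num : (1 / 4 : ℝ) < 1)
  refine ⟨Q, s₀, C + Cs + s₀ / (γ * c) + Cl / γ, fun η => K ^ n η + Kd η, by omega, by linarith,
    by omega, fun η η0 => ?_⟩
  obtain ⟨K', s₂, hK', hO2⟩ := hO η η0
  refine ⟨K', s₂ + ρ₀, hK', fun M _ I r z a ν ρ hm hM h1 h2 => ?_⟩
  obtain ⟨φ, U, W, k1, k2, k3⟩ := hN M I r z a ν ρ hm hM h1 h2
  have x1 : Q₂ * ρ + Ql * ρ + Qd * ρ ≤ Q * ρ := by
    rw [← add_mul, ← add_mul]
    exact Nat.mul_le_mul_right _ hQ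
  have x2 : ρ ≤ Q₂ * ρ := Nat.le_mul_of_pos_left _ hQ₂
  rw [add_mul, add_mul] at k1
  obtain ⟨A, A0, a1, a2⟩ := k2 s₀ (by omega) h1
  have v0 : 0 < φ (z, a) ^ 2 := (mul_pos c0 A0).trans_le (k3 A a1)
  have v1 : φ (z, a) ≠ 0 := fun e => by simp [e] at v0
  obtain ⟨φ₀, hφ₀⟩ : ∃ φ₀, φ₀ = (φ (z, a))⁻¹ • φ := ⟨_, rfl⟩
  have one : φ₀ (z, a) = 1 := by rw [hφ₀]; exact inv_mul_cancel₀ v1
  have hp : ∀ s, 0 < l2 z φ₀ s := fun s => lt_of_lt_of_le (by simp [one]) (sq_le φ₀ z a s)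
  have el : ∀ s, l2 z φ s = φ (z, a) ^ 2 * l2 z φ₀ s := fun s => by
    rw [hφ₀]
    simp only [l2, E4.l2sq_smul]
    field_simp
  have h0 : Hom (pwI I) z ρ φ₀ := fun x hx => by
    rw [hφ₀, mulVec_smul, Pi.smul_apply, k1.hom x (by omega), smul_zero]
  have st : ∀ {K s η}, 2 ≤ K → ρ₀ ≤ s → K * s ≤ ρ → (∀ A₀, Q₂ * (K * s) ≤ r →
      PP I z (Q₂ * (K * s)) φ U W → 0 < A₀ → Dq W ν (K * s) A₀ →
      γ * l2 z φ (K * s) ≤ K * s * A₀ → Stp I z ν φ Q₂ K s C η) → Stp I z ν φ₀ Q₂ K s C η := by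
    intro K s η e1 e2 e3 e4
    have y1 : s ≤ K * s := Nat.le_mul_of_pos_left _ (by omega)
    have y2 := Nat.mul_le_mul_left Q₂ e3
    obtain ⟨A₀, b1, b2, b3⟩ := k2 (K * s) (by omega) e3
    rw [hφ₀]
    exact (e4 A₀ (by omega) (PP.mono k1 (by omega)) b1 b2 (by exact_mod_cast b3)).smul
      (inv_ne_zero v1)
  have low : ∀ s σ, s₀ ≤ s → s ≤ σ → σ ≤ ρ →
      l2 z φ₀ σ * (s : ℝ) ^ 3 ≤ Cl / γ * (σ : ℝ) ^ 3 * l2 z φ₀ s := fun s σ e1 e2 e3 => by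
    obtain ⟨A₀, b1, b2, b3⟩ := k2 σ (by omega) e3
    have y2 := Nat.mul_le_mul_left Ql e3
    have b4 := hL M I r z a ν σ φ U W A₀ hm.toMk0 (by omega) (by omega) (PP.mono k1 (by omega))
      b1.le b2 s (by omega) e2
    rw [el] at b3 b4
    rw [div_mul_eq_mul_div, div_mul_eq_mul_div, le_div_iff₀ γ0]
    refine le_of_mul_le_mul_left ?_ v0
    linarith [mul_le_mul_of_nonneg_right b3 (by positivity : (0 : ℝ) ≤ (s : ℝ) ^ 3),
      mul_le_mul_of_nonneg_left b4 (Nat.cast_nonneg (α := ℝ) σ)]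
  have bot : l2 z φ₀ s₀ ≤ s₀ / (γ * c) := by
    rw [el] at a2
    rw [le_div_iff₀ (by positivity)]
    refine le_of_mul_le_mul_left ?_ v0
    linarith [mul_le_mul_of_nonneg_left a2 c0.le,
      mul_le_mul_of_nonneg_left (k3 A a1) (Nat.cast_nonneg (α := ℝ) s₀)]
  have gn := fun {ψ s σ n} => gen (φ := ψ) (s := s) (σ := σ) (n := n) (s₁ := s₀) hK h0 hp
    (fun s e1 e2 => (st hK (by omega) e2 fun A₀ => hO1 M I r z a ν s φ U W A₀ hm hM (by omega)).1)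
    (by linarith) l0 (by omega) low
  rw [← hD'] at gn
  have size : ∀ s σ, s₀ ≤ s → s ≤ σ → σ ≤ ρ → ∀ ψ, Hom (pwI I) z σ ψ →
      l2 z ψ s * l2 z φ₀ σ ≤ Cs * l2 z φ₀ s * l2 z ψ σ := fun s σ e1 e2 e3 ψ e4 => by
    obtain ⟨τ, b1, b2⟩ := gn (n := 0) e1 (by simpa using e2) e3 e4
    rw [hCs]
    rw [pow_zero, one_mul] at b2
    linarith [mul_le_mul_of_nonneg_right (l2_le (z := z) ψ φ₀ τ s).1 (hp σ).le,
      mul_le_mul_of_nonneg_left b1 (hp s).le]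
  have mo : ∀ {x y C₁ p q : ℝ}, x ≤ C₁ * p * q → C₁ ≤ y → 0 ≤ p → 0 ≤ q → x ≤ y * p * q :=
    fun e1 e2 e3 e4 => e1.trans (mul_le_mul_of_nonneg_right (mul_le_mul_of_nonneg_right e2 e3) e4)
  refine ⟨φ₀, ⟨one, h0, by linarith, fun s σ e1 e2 e3 ψ e4 => mo (size s σ e1 e2 e3 ψ e4)
    (by linarith) (hp s).le (E3.l2sq_nonneg _ _), fun η η0 s σ e1 e2 e3 ψ e4 => ?_,
    fun s σ e1 e2 e3 => mo (low s σ e1 e2 e3) (by linarith) (by positivity) (hp s).le,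
    fun η η0 s σ e1 e2 e3 => ?_⟩, fun s e1 e2 => ?_⟩
  · rw [add_mul] at e2
    have y1 : s ≤ K ^ n η * s := Nat.le_mul_of_pos_left _ (pow_pos (by omega) _)
    obtain ⟨τ, -, b2⟩ := gn (n := n η) e1 (by omega) e3 e4
    have b3 := center one bot s0 τ (size s₀ s le_rfl e1 (by omega) _
      (hom_sub (fun x hx => e4 x (hx.trans (by omega))) (fun x hx => h0 x (hx.trans (by omega))) τ))
    have b4 := (hn η η0).le
    rw [le_div_iff₀ (by positivity)] at b4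
    have b5 := mul_nonneg (hp s).le (E3.l2sq_nonneg (ball z σ) ψ)
    have b6 := mul_le_mul_of_nonneg_left b2 (by positivity : 0 ≤ 2 + 2 * (Cs * (s₀ / (γ * c))))
    have b7 := mul_le_mul_of_nonneg_right b4 b5
    have b8 := mul_nonneg (by positivity : (0 : ℝ) ≤ (1 / 4) ^ n η) b5
    linarith [mul_le_mul_of_nonneg_right b3 (hp σ).le]
  · rw [add_mul] at e2
    have y2 := Nat.mul_le_mul_left Qd e3
    exact hD η η0 M I r z a ν s σ φ₀ hm hM (by omega) (by omega) (by omega)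
      fun x hx => h0 x (by omega)
  · obtain ⟨b1, b2⟩ := st hK' (by omega) e2 fun A₀ =>
      hO2 M I r z a ν s φ U W A₀ hm hM (by omega)
    have y1 : Q₂ * (K' * s) ≤ Q * (K' * s) := Nat.mul_le_mul_right _ (by omega)
    refine ⟨fun ψ e4 => ⟨mo (b1 ψ e4).1 (by linarith) (hp s).le (E3.l2sq_nonneg _ _),
      (b1 ψ e4).2⟩, fun W' A' e4 e5 e6 => ?_⟩
    obtain ⟨A'', b3, b4⟩ := b2 W' A' e4 (fun v hv => e5 v (by omega)) e6
    refine ⟨A'', b3, mo b4 (by linarith) ?_ (hp _).le⟩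
    have := (mul_nonneg (mul_nonneg e4 (Nat.cast_nonneg _)) (hp s).le).trans b4
    exact nonneg_of_mul_nonneg_right (nonneg_of_mul_nonneg_left this (hp _)) (by linarith)

theorem homM_of (hMo : ModM) (hO : OneM) (hLo : LowM) (hNr : NrmM) (hNd : NdM) (hRf : RefM) :
    HomM := fun N => by
  obtain ⟨Q, s₀, C, Kf, h1, h2, -, h⟩ := homX hMo hO hLo hNr hNd hRf N
  obtain ⟨_, _, -, h⟩ := h 1 one_pos
  exact ⟨Q, s₀, C, Kf, h1, h2, fun M _ I r z a ν ρ e1 e2 e3 e4 =>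
    (h M I r z a ν ρ e1 e2 e3 e4).imp fun _ k => k.1⟩

theorem posV_of (hMo : ModM) (hO : OneM) (hLo : LowM) (hNr : NrmM) (hNd : NdM) (hRf : RefM) :
    PosV := fun N => by
  obtain ⟨Q, s₀, C, Kf, -, hC, hQ, h⟩ := homX hMo hO hLo hNr hNd hRf N
  obtain ⟨Ql, ρl, Cl, hCl, hQl, hL⟩ := lowN hLo hNr
  obtain ⟨Qi, ρi, ci, c0, hQi, hI⟩ := lowI hLo
  refine ⟨Q + Ql + Qi, by omega, fun Q' => ?_⟩
  obtain ⟨B, B0, hB⟩ : ∃ B > (0 : ℝ), Q' ≤ B := ⟨|Q'| + 1, by positivity, by linarith [le_abs_self Q']⟩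
  obtain ⟨η, η0, hη⟩ : ∃ η > (0 : ℝ), C * Cl * (4 * (2 + 2 * (C * C))) * B * η = ci / 8 :=
    ⟨ci / 8 / (C * Cl * (4 * (2 + 2 * (C * C))) * B), by positivity,
      mul_div_cancel₀ _ (by positivity)⟩
  obtain ⟨K, s₁, hK, h⟩ := h η η0
  refine ⟨ci / (32 * C ^ 3 * Cl), by positivity, K * (s₀ + s₁ + ρl + ρi + 1),
    fun M _ I r z a ν ρ hm hM h1 h2 φ U W A u hp hA hq h3 hu u1 => ?_⟩
  obtain ⟨s, s1, s2, s3⟩ : ∃ s, s₀ + s₁ + ρl + ρi + 1 ≤ s ∧ K * s ≤ ρ ∧ ρ ≤ 2 * (K * s) := by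
    have x1 : s₀ + s₁ + ρl + ρi + 1 ≤ ρ / K :=
      (Nat.le_div_iff_mul_le (by omega)).2 (by rwa [mul_comm])
    have x2 := Nat.lt_mul_div_succ ρ (by omega : 0 < K)
    have x3 : K * 1 ≤ K * (ρ / K) := Nat.mul_le_mul_left _ (by omega)
    exact ⟨ρ / K, x1, Nat.mul_div_le ρ K, by rw [mul_add] at x2; omega⟩
  have x1 : s ≤ K * s := Nat.le_mul_of_pos_left _ (by omega)
  have x2 := Nat.mul_le_mul_left Q s2
  have x3 := Nat.mul_le_mul_left Ql (x1.trans s2)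
  have x4 : ρ ≤ Q * ρ := Nat.le_mul_of_pos_left _ hQ
  rw [add_mul, add_mul] at h2 hp
  obtain ⟨φ₀, hR, hS⟩ := h M I r z a ν ρ hm hM (by omega) (by omega)
  obtain ⟨k1, k2⟩ := hS s (by omega) s2
  have p0 : ∀ s, 0 < l2 z φ₀ s := fun s => lt_of_lt_of_le (by simp [hR.one]) (sq_le φ₀ z a s)
  have hW : ∀ v, zd v 0 ≤ Q * ρ + Ql * ρ + Qi * ρ → 0 ≤ W v ∧ (z + prj M v ∈ I → SupH W v) :=
    fun v hv => ⟨hp.nn v (by omega), hp.sup v hv⟩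
  have r0 : (0 : ℝ) < ρ := by exact_mod_cast (by omega : 0 < ρ)
  have r1 : (ρ : ℝ) ≤ 2 * (K * s) := by exact_mod_cast s3
  have s0 : (0 : ℝ) < s := by exact_mod_cast (by omega : 0 < s)
  obtain ⟨A', a1, a2⟩ := k2 W (ci * A / 4) (by positivity) (fun v hv => hW v (by omega))
    (Dq.mono (hI M I r z a ν ρ W A hm.toMk0 (by omega) hA (fun v hv => hW v (by omega)) hq (K * s)
      (by omega) s2) (by
        have : (1 / 2 : ℝ) ≤ (K * s : ℕ) / ρ := by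
          rw [le_div_iff₀ r0]
          push_cast
          linarith
        linarith [mul_le_mul_of_nonneg_left (pow_le_pow_left₀ (by norm_num) this 2)
          (mul_nonneg c0.le hA)]))
  have a0 : 0 ≤ A' := nonneg_of_mul_nonneg_right (nonneg_of_mul_nonneg_left
    ((mul_nonneg (by positivity) (p0 s).le).trans a2) (p0 _)) (by linarith)
  have a3 : A' * s ≤ Cl * l2 z φ s := by
    refine le_of_mul_le_mul_right ?_ (pow_pos s0 2)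
    linarith [hL M I r z a ν s φ U W A' hm.toMk0 (by omega) (by omega) (PP.mono hp (by omega)) a0 a1
      s (by omega) le_rfl]
  obtain ⟨-, t, a4⟩ := k1 φ fun x hx => hp.hom x (by omega)
  have a5 := center hR.one hR.bot (by linarith : 0 ≤ C) t (hR.size s₀ s le_rfl (by omega) (by omega)
    _ (hom_sub (fun x hx => hp.hom x (hx.trans (by omega)))
      (fun x hx => hR.hom x (hx.trans (by omega))) t))
  have a6 := (l2_le (z := z) φ φ₀ (φ (z, a)) s).1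
  have a7 : l2 z φ (K * s) ≤ B * A * (2 * (K * s)) :=
    ((E3.l2sq_mono (E3.ball_mono z s2) φ).trans h3).trans
      (mul_le_mul (mul_le_mul_of_nonneg_right hB hA) r1 r0.le (by positivity))
  have a8 : l2 z φ₀ (K * s) ≤ C * C * l2 z u ρ := by
    have b1 : l2 z u s₀ * l2 z φ₀ ρ ≤ C * l2 z φ₀ s₀ * l2 z u ρ :=
      hR.size s₀ ρ le_rfl (by omega) le_rfl u hu
    have b2 := mul_le_mul_of_nonneg_right (sq_le u z a s₀) (p0 ρ).le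
    have b3 : C * l2 z φ₀ s₀ * l2 z u ρ ≤ C * C * l2 z u ρ := mul_le_mul_of_nonneg_right
      (mul_le_mul_of_nonneg_left hR.bot (by linarith)) (E3.l2sq_nonneg _ _)
    rw [u1, one_pow, one_mul] at b2
    exact (E3.l2sq_mono (E3.ball_mono z s2) φ₀).trans (b2.trans (b1.trans b3))
  have ps := p0 s
  have pK := p0 (K * s)
  generalize l2 z φ₀ s = p at *
  generalize l2 z φ₀ (K * s) = P at *
  have b1 := mul_le_mul_of_nonneg_right a2 s0.le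
  have b2 := mul_le_mul_of_nonneg_left a3 (by positivity : 0 ≤ C * P)
  have b3 := mul_le_mul_of_nonneg_left a6 (by positivity : 0 ≤ C * P * Cl)
  have b4 := mul_le_mul_of_nonneg_left a5 (by positivity : 0 ≤ 2 * (C * P * Cl))
  have b5 := mul_le_mul_of_nonneg_left (a4.trans (mul_le_mul_of_nonneg_left a7 (by positivity)))
    (by positivity : 0 ≤ 2 * (C * Cl) * (2 + 2 * (C * C)))
  have b6 := congrArg (· * (A * (K * s) * p)) hη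
  have b7 : ci / 8 * (A * (K * s)) ≤ 2 * (C * Cl) * (φ (z, a) ^ 2 * P) :=
    le_of_mul_le_mul_right (by linarith) ps
  have b8 := mul_le_mul_of_nonneg_left a8 (by positivity : 0 ≤ 2 * (C * Cl) * φ (z, a) ^ 2)
  have b9 := mul_le_mul_of_nonneg_left r1 (by positivity : 0 ≤ ci * A)
  rw [div_mul_eq_mul_div, div_mul_eq_mul_div, div_le_iff₀ (by positivity)]
  linarith

end Vale.Agent.P144C.O
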