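import Vale.Agent.P144C.O.Core
import Vale.Agent.P144C.P.Mas
import Vale.Agent.P144L.D.Slp
import Vale.Agent.P144L.D.App
import Vale.Agent.P144L.B.Bar
import Vale.Agent.P144L.H.Bhp

/-!
Sign changes at corners: one change of scale, relatively to a positive solution.
-/

namespace Vale.Agent.P144C.O

open Finset Matrix Vale.Agent.P144Z Vale.Agent.P144L P144L.G P144L.R IN5a

theorem rel {x s T Y B p q f C : ℝ} (hT : 0 < T) (hq : 0 ≤ q) (hf : 0 ≤ f) (hC : 0 ≤ C)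
    (h1 : x * T ≤ C * Y * s * f) (h2 : s * Y * q ≤ B * T * p) : x * q ≤ C * B * p * f := by
  refine le_of_mul_le_mul_right ?_ hT
  have k1 := mul_le_mul_of_nonneg_right h1 hq
  have k2 := mul_le_mul_of_nonneg_left h2 (mul_nonneg hC hf)
  linarith

/-- One change of scale. -/
theorem oneM_of (hBa : BarL) (hBh : BhpL) (hSl : SlpL) (hAp : AppL) (hDb : DblL) (hMa : MasM)
    (hLo : LowM) (hNr : NrmM) : OneM := by
  intro N
  obtain ⟨Q, hQ, C, hC, c, c0, H⟩ := core hBa hBh hSl hAp hDb hMa hLo N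
  obtain ⟨Cn, ρn, hCn, hNr⟩ := hNr
  obtain ⟨_, -, hNr⟩ := hNr ρn le_rfl
  refine ⟨Q, hQ, fun γ γ0 => ?_⟩
  obtain ⟨B, B0, hB⟩ : ∃ B > (0 : ℝ), B * (c * γ) = 3 * Cn :=
    ⟨3 * Cn / (c * γ), by positivity, div_mul_cancel₀ _ (by positivity)⟩
  have p1 : 0 ≤ C * B := by positivity
  have p2 : 0 ≤ C / c := by positivity
  refine ⟨C * B + C / c + 1, by linarith, fun η η0 => ?_⟩
  obtain ⟨ε, ε0, ε1, ε2⟩ : ∃ ε > (0 : ℝ), ε ≤ 1 / 4 ∧ 2 * ε + 16 * ε * (C * B + ε) ≤ η := by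
    obtain ⟨ε, ε0, ε1, ε2⟩ : ∃ ε > (0 : ℝ), ε ≤ 1 / 4 ∧ ε ≤ η / (2 + 16 * (C * B + 1)) :=
      ⟨min _ _, by positivity, min_le_left _ _, min_le_right _ _⟩
    rw [le_div_iff₀ (by positivity)] at ε2
    exact ⟨ε, ε0, ε1, by nlinarith⟩
  obtain ⟨a, a0, a1, a2⟩ : ∃ a > (0 : ℝ), a ≤ 1 ∧ a * B ≤ ε :=
    ⟨min 1 (ε / B), by positivity, min_le_left _ _, (le_div_iff₀ B0).1 (min_le_right _ _)⟩
  obtain ⟨K, hK, H⟩ := H a a0 a1
  have K0 : (0 : ℝ) < K := by exact_mod_cast (by omega : 0 < K)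
  obtain ⟨s₀, H⟩ := H (a * (1 / (K : ℝ) ^ 2)) (by positivity)
  refine ⟨K, s₀ + 2 * ρn + 2, hK, fun M _ I r z b ν s φ₀ U₀ W₀ A₀ hm hR hM hs hr hp A0 hq hγ => ?_⟩
  obtain ⟨X, X0, ⟨u, -, h1⟩, h2, h3⟩ := H M I r z b ν s hm hR hM (by omega) hr
  have x1 : 2 * s ≤ K * s := Nat.mul_le_mul_right _ hK
  have x2 : K * s ≤ Q * (K * s) := Nat.le_mul_of_pos_left _ hQ
  have s0 : (0 : ℝ) < s := by exact_mod_cast (by omega : 0 < s)
  have h4 : HomSz (pwI I) z s (K * s) (C * (X + 1 / (K : ℝ) ^ 2)) := fun φ hφ =>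
    (h2 φ hφ).trans (by
      have := E3.l2sq_nonneg (ball z (K * s)) φ
      have : a * (1 / (K : ℝ) ^ 2) ≤ 1 / (K : ℝ) ^ 2 := mul_le_of_le_one_left (by positivity) a1
      gcongr)
  rw [← mul_add] at h1
  have Y0 : 0 < X + 1 / (K : ℝ) ^ 2 := by positivity
  generalize X + 1 / (K : ℝ) ^ 2 = Y at h1 h3 h4 Y0
  have k1 := ((hNr M I r _ z b ν φ₀ U₀ W₀ hm hp hr (by omega) (c * A₀ * Y)).1 (s / 2) (by omega)
    (by omega)).1 (by positivity) (h3 W₀ A₀ A0.le (fun v hv => ⟨hp.nn v (by omega), hp.sup v hv⟩)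
      hq _ (by omega) (by omega))
  have k2 : l2 z φ₀ (2 * (s / 2)) ≤ l2 z φ₀ s := E3.l2sq_mono (E3.ball_mono z (by omega)) _
  have k3 : l2 z φ₀ s ≤ l2 z φ₀ (K * s) := E3.l2sq_mono (E3.ball_mono z (by omega)) _
  have k4 : s * (c * A₀ * Y) ≤ 3 * Cn * l2 z φ₀ s := by
    have e1 : (s : ℝ) ≤ 3 * (s / 2 : ℕ) := by exact_mod_cast (by omega : s ≤ 3 * (s / 2))
    have e2 := mul_le_mul_of_nonneg_right e1 (by positivity : 0 ≤ c * A₀ * Y)
    have e3 := mul_le_mul_of_nonneg_left k2 (by linarith : 0 ≤ Cn)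
    linarith
  have k5 : 0 < l2 z φ₀ s := pos_of_mul_pos_right (lt_of_lt_of_le (by positivity) k4) (by linarith)
  have k6 : s * Y * l2 z φ₀ (K * s) ≤ B * (K * s : ℕ) * l2 z φ₀ s := by
    refine le_of_mul_le_mul_right ?_ (mul_pos c0 γ0)
    have e1 := mul_le_mul_of_nonneg_left hγ (by positivity : 0 ≤ s * c * Y)
    have e2 := mul_le_mul_of_nonneg_left k4 (by positivity : (0 : ℝ) ≤ K * s)
    have e3 := congrArg (· * (K * s * l2 z φ₀ s)) hB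
    push_cast
    linarith
  have T0 : (0 : ℝ) < (K * s : ℕ) := by exact_mod_cast (by omega : 0 < K * s)
  have q0 := k5.trans_le k3
  have h0 : Hom (pwI I) z (K * s) φ₀ := fun t ht => hp.hom t (by omega)
  refine ⟨fun φ hφ => ?_, fun W A hA w1 w2 => ⟨_, h3 W A hA w1 w2 s (by omega) le_rfl, ?_⟩⟩
  · have f0 := E3.l2sq_nonneg (ball z (K * s)) φ
    have m1 := rel T0 q0.le f0 (by linarith) (h4 φ hφ) k6
    have m0 := mul_nonneg k5.le f0
    refine ⟨m1.trans (by nlinarith [mul_nonneg p2 m0]), ?_⟩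
    obtain ⟨t, m2⟩ := h1 φ hφ
    obtain ⟨t', m3⟩ := h1 φ₀ h0
    have m4 := rel T0 q0.le f0 a0.le m2 k6
    have m5 := rel T0 q0.le q0.le a0.le m3 k6
    obtain ⟨t'', m6⟩ := swap2 (B := ball z s) (U := φ₀) (v := u) (w := φ) (t := t) (t' := t')
      (X := l2 z φ₀ s * l2 z φ (K * s) / l2 z φ₀ (K * s)) (c := C * B) (ε := ε)
      (by rw [← mul_div_assoc, le_div_iff₀ q0, ← mul_assoc]; exact m1)
      (by
        rw [← mul_div_assoc, le_div_iff₀ q0]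
        exact m4.trans (by rw [mul_assoc]; exact mul_le_mul_of_nonneg_right a2 m0))
      ((le_of_mul_le_mul_right m5 q0).trans (mul_le_mul_of_nonneg_right a2 k5.le)) ε0.le ε1 k5
    refine ⟨t'', ?_⟩
    rw [← mul_div_assoc, le_div_iff₀ q0] at m6
    exact m6.trans (by rw [mul_assoc η]; exact mul_le_mul_of_nonneg_right ε2 m0)
  · have m1 := h4 φ₀ h0
    have m2 : K * l2 z φ₀ s ≤ C * Y * l2 z φ₀ (K * s) := by
      refine le_of_mul_le_mul_right ?_ s0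
      push_cast at m1
      linarith
    have m3 := mul_le_mul_of_nonneg_left m2 hA
    have m4 : C / c * (c * A * Y) = A * (C * Y) := by field_simp
    have m5 := congrArg (· * l2 z φ₀ (K * s)) m4
    have m6 := mul_nonneg (by linarith : 0 ≤ C * B + 1) (by positivity : 0 ≤ c * A * Y * l2 z φ₀ (K * s))
    linarith

theorem oneM (hNr : NrmM) : OneM :=
  oneM_of B.barL (H.bhpL D.chnL D.dblL) D.slpL D.appL D.dblL P.masM P.lowM hNr

end Vale.Agent.P144C.O
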