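import Vale.Agent.P144C.O.Pre

/-!
Sign changes at corners: one change of scale in terms of the barrier.
-/

namespace Vale.Agent.P144C.O

open Finset Matrix Vale.Agent.P144Z Vale.Agent.P144L P144L.G P144L.R IN5a

theorem Dq.mono {W : ℤ × ℤ → ℝ} {ν : ℂ} {ρ : ℕ} {A A' : ℝ} (h : Dq W ν ρ A) (h' : A' ≤ A) :
    Dq W ν ρ A' := fun v hv => h'.trans (h v hv)

/-- The positive superharmonic functions dominate the barrier. -/
theorem lowb (hDb : DblL) (hMa : MasM) (hLo : LowM) : ∃ Qm Ql : ℕ, 1 ≤ Qm ∧ 1 ≤ Ql ∧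
    ∀ D n : ℕ, 1 ≤ D → 3 ≤ n → ∃ c > (0 : ℝ), ∃ K₂ s₀ : ℕ, ∀ out ν (y : ℤ × ℤ) (K' s : ℕ)
    (ω W : ℤ × ℤ → ℝ) (X : ℤ × ℤ) (A : ℝ), Ou out ν → Bp out y → zd y 0 ≤ 1 →
    (∀ (t D : ℕ) v, 9 * (D + 2) ≤ t → zd v (rd ν t) ≤ D → ¬ out v) → K₂ ≤ K' → s₀ ≤ s →
    IsBar 1 (prO out) ν (Qm * (K' * s)) ω → zd X 0 ≤ n * s → 0 ≤ A →
    (∀ v, zd v 0 ≤ Ql * (D * K' * s) → 0 ≤ W v ∧ (¬ out v → SupH W v)) → Dq W ν (D * K' * s) A →
    ∀ t, s ≤ 2 * t + 1 → t ≤ s → Dq W ν t (c * A * (ω X + 1 / (D * K' : ℕ) ^ 2)) := by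
  obtain ⟨Qd, hQd, hDb⟩ := hDb
  obtain ⟨Qm, ρm, cm, cm0, hQm, hMa⟩ := hMa
  obtain ⟨Ql, ρl, cl, cl0, hQl, hLo⟩ := hLo
  refine ⟨Qm, Ql + Qm, hQm, by omega, fun D n hD hn => ?_⟩
  obtain ⟨cd, cd0, hDb⟩ := hDb (400 * (n + 1)) (by omega)
  have D0 : (0 : ℝ) < D := by exact_mod_cast hD
  refine ⟨min (cm * (cl / D ^ 2) * cd) (cl / 9) / 2, by positivity, Qd * (400 * (n + 1)) + 2,
    2 * ρl + ρm + 20001, fun out ν y K' s ω W X A ho hy y1 hd hK hs hω hX hA hW hq t t1 t2 v hv =>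
      ?_⟩
  obtain ⟨T', hT'⟩ : ∃ T', T' = K' * s := ⟨_, rfl⟩
  have e1 : D * K' * s = D * T' := by rw [hT', mul_assoc]
  have x0 : Qd * (400 * (n + 1)) * s + 2 * s ≤ T' := by
    rw [hT', ← add_mul]
    exact Nat.mul_le_mul_right _ hK
  have x1 : T' ≤ D * T' := Nat.le_mul_of_pos_left _ hD
  have x2 : T' ≤ Qm * T' := Nat.le_mul_of_pos_left _ hQm
  have x3 : Qm * T' ≤ Qm * (D * T') := Nat.mul_le_mul_left _ x1
  rw [← hT'] at hω
  have K0 : (0 : ℝ) < K' := by exact_mod_cast (by omega : 0 < K')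
  have s0 : (0 : ℝ) < s := by exact_mod_cast (by omega : 0 < s)
  have l1 := hLo out ν y _ W A ho hy y1 hA (fun v hv => hW v (by rw [add_mul]; omega)) hq
  rw [e1] at l1 hW
  have l2 := l1 T' (by omega) x1
  have l3 := l1 t (by omega) (by omega) v hv
  have e2 : ((T' : ℝ) / (D * T' : ℕ)) ^ 2 = 1 / D ^ 2 := by
    have : (0 : ℝ) < T' := by exact_mod_cast (by omega : 0 < T')
    push_cast
    field_simp
  rw [e2] at l2
  have p1 := (pos_of_bar hω (y := 0) (t := Qm * T') (by rw [zd_zero]; omega)).har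
  have p2 := (pos_of_bar hω (y := y) (t := Qm * T' - 1) (by omega))
  have zr := zd_rd ho.nrm t
  have zv : zd v 0 ≤ 2 * s := by
    have := GeoA.zd_tri v (rd ν t) 0
    omega
  have m1 := hMa out ν y T' W ω _ 1 ho hy y1 (by omega) (by positivity) zero_le_one
    (fun v hv => hW v (by rw [add_mul]; omega)) l2 (fun v hv =>
      ⟨(hω.rng v).2, fun o => (p1.zero v hv o).le, fun o => ?_⟩) v (by omega)
  · have d1 : s < 200 * (s / 200 + 1) := Nat.lt_mul_div_succ s (by norm_num)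
    have d2 : (n + 1) * s ≤ 400 * (n + 1) * (s / 200) := by
      rw [mul_comm 400, mul_assoc]
      exact Nat.mul_le_mul_left _ (by omega)
    have d3 : Qd * (400 * (n + 1) * (s / 200)) ≤ Qd * (400 * (n + 1)) * s := by
      rw [← mul_assoc]
      exact Nat.mul_le_mul_left _ (Nat.div_le_self _ _)
    have d4 : 3 * s ≤ n * s := Nat.mul_le_mul_right _ hn
    rw [add_mul, one_mul] at d2
    have m2 := hDb out ν ho y X v (s / 200) _ ω (by omega) (by omega) p2 hy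
      (by have := GeoA.zd_tri X 0 y; rw [GeoA.zd_comm 0] at this; omega)
      (by have := GeoA.zd_tri v 0 y; rw [GeoA.zd_comm 0] at this; omega)
      fun x hx => hd t (t / 10 + s / 200) x (by omega) (by
        have := GeoA.zd_tri x v (rd ν t)
        omega)
    have m3 : 1 / 9 * (1 / ((D * K' : ℕ) : ℝ) ^ 2) ≤ ((t : ℝ) / (D * T' : ℕ)) ^ 2 := by
      have : (s : ℝ) ≤ 3 * t := by exact_mod_cast (by omega : s ≤ 3 * t)
      rw [hT']
      push_cast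
      rw [div_pow, div_mul_div_comm, div_le_div_iff₀ (by positivity) (by positivity)]
      have h2 := mul_le_mul_of_nonneg_left (pow_le_pow_left₀ s0.le this 2)
        (by positivity : (0 : ℝ) ≤ (D * K') ^ 2)
      linarith
    have w0 := (hω.rng X).1
    have m4 := mul_le_mul_of_nonneg_left m2 (by positivity : 0 ≤ cm * (cl * A * (1 / D ^ 2)))
    have m5 := mul_le_mul_of_nonneg_left m3 (by positivity : 0 ≤ cl * A)
    have m6 := mul_le_mul_of_nonneg_right (min_le_left (cm * (cl / D ^ 2) * cd) (cl / 9))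
      (mul_nonneg hA w0)
    have m7 := mul_le_mul_of_nonneg_right (min_le_right (cm * (cl / D ^ 2) * cd) (cl / 9))
      (by positivity : 0 ≤ A * (1 / ((D * K' : ℕ) : ℝ) ^ 2))
    have m8 : cm * (cl / D ^ 2) * cd * (A * ω X) = cm * (cl * A * (1 / D ^ 2)) * (cd * ω X) := by
      ring
    linarith
  · refine le_of_le_of_eq ?_ (neg_eq_zero.2 (hω.harm v hv))
    rw [lapG, ← sum_neg_distrib]
    refine sum_le_sum fun b _ => ?_
    have := (hω.rng (v + st4 b)).1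
    simp only [Pi.neg_apply]
    split_ifs <;> linarith

/-- The size at one point. -/
theorem size (C₀ : ℝ) (hC₀ : 1 ≤ C₀) : ∃ C : ℝ, 1 ≤ C ∧ ∀ (M : ℕ) [NeZero M] (I : Finset (Tor M))
    (z : Tor M) (s₁ s σ T : ℕ) (ω : ℤ × ℤ → ℝ) (κ W E : ℝ), 1 ≤ s → 2 * s + 3 ≤ σ → σ ≤ s₁ →
    (∀ v, 0 ≤ ω v) → (∀ v, zd v 0 ≤ σ → ω v ≤ W) → ∀ φ, Hom (pwI I) z T φ →
    (∃ (u w : ℤ × ℤ → ℝ) (lam : ℝ), Cx (rg I) 1 z s₁ φ C₀ (κ * l2sq (ball z T) φ) u w ∧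
      |lam| ≤ κ * l2sq (ball z T) φ ∧
      ∀ v, zd v 0 ≤ σ → |u v - lam * ω v| ≤ E * (κ * l2sq (ball z T) φ)) →
    l2sq (ball z s) φ * T ≤ C * (κ * T) * (W + E) * s * l2sq (ball z T) φ := by
  obtain ⟨C₃, hC₃, hL⟩ := B2b2.loc_l2
  refine ⟨2 * (C₃ * C₀), by linarith [one_le_mul_of_one_le_of_one_le hC₃ hC₀],
    fun M _ I z s₁ s σ T ω κ W E h1 h2 h3 ω0 hW φ _ ⟨u, w, lam, h, g1, g2⟩ => ?_⟩
  have S0 := h.S0
  have ub : ∀ v, zd v 0 ≤ σ → |u v| ≤ (W + E) * (κ * l2sq (ball z T) φ) := fun v hv => by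
    have a1 := abs_sub_abs_le_abs_sub (u v) (lam * ω v)
    have a2 := mul_le_mul g1 (hW v hv) (ω0 v) S0
    rw [abs_mul, abs_of_nonneg (ω0 v)] at a1
    linarith [g2 v hv]
  have k := hL M (rg I) z _ φ u w C₀ (by linarith) h.pair h.le 0 s _ (by rw [zd_zero]; omega)
    fun v hv => by
      rw [zero_add]
      exact ub v (by omega)
  have hvx : (rg I).vx z 0 0 = z := by simp [B2b2.vx_zero, P144Z.G.prj_zero]
  rw [hvx] at k
  have s1 : (s : ℝ) + 1 ≤ 2 * s := by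
    have : (1 : ℝ) ≤ s := by exact_mod_cast h1
    linarith
  have u0 := (abs_nonneg _).trans (ub 0 (by rw [zd_zero]; omega))
  have a1 := mul_le_mul_of_nonneg_right (mul_le_mul_of_nonneg_left s1
    (by positivity : 0 ≤ C₃ * C₀)) u0
  exact (mul_le_mul_of_nonneg_right (k.trans a1) (Nat.cast_nonneg T)).trans_eq (by ring)

theorem num {Y H G P a W E e X : ℝ} (h1 : Y ≤ H)
    (h2 : X ≤ 16 * G * W / P + (16 * G + 4 * G * P) * E) (hX : 0 ≤ X) (hG : 1 ≤ G) (hP : 0 < P)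
    (ha : 0 < a) (hW : 0 ≤ W) (hE : 0 ≤ E) (hH : 0 ≤ H) (h3 : 64 * H * G ^ 2 / a ≤ P)
    (h4 : (H * (2 * G * (16 * G + 4 * G * P) + 1) + 1) * E = a / 2 * W + e) :
    Y * (2 * G * X + E) ≤ a * W + e := by
  have k4 : H * (2 * G * (16 * G * W / P)) ≤ a / 2 * W := by
    rw [div_le_iff₀ ha] at h3
    rw [← mul_div_assoc, ← mul_div_assoc, div_le_iff₀ hP]
    nlinarith [mul_le_mul_of_nonneg_right h3 hW]
  refine (mul_le_mul h1 (add_le_add_left (mul_le_mul_of_nonneg_left h2 (by linarith)) E)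
    (by positivity) hH).trans ?_
  linarith

theorem slp {x d : ℝ} {G s : ℕ} (hs : 1 ≤ s) (hd : 0 ≤ d) (h : x ≤ G * (s + 1 : ℕ) * d) :
    x ≤ 2 * G * s * d := by
  refine h.trans (mul_le_mul_of_nonneg_right ?_ hd)
  have : G * (s + 1) ≤ G * (2 * s) := Nat.mul_le_mul_left _ (by omega)
  calc _ ≤ ((G * (2 * s) : ℕ) : ℝ) := by exact_mod_cast this
    _ = _ := by push_cast; ring

/-- One change of scale in terms of the barrier. -/
theorem core (hBa : BarL) (hBh : BhpL) (hSl : SlpL) (hAp : AppL) (hDb : DblL) (hMa : MasM)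
    (hLo : LowM) (N : ℕ) : ∃ Q : ℕ, 1 ≤ Q ∧ ∃ C : ℝ, 1 ≤ C ∧ ∃ c > (0 : ℝ), ∀ a > (0 : ℝ), a ≤ 1 →
    ∃ K : ℕ, 2 ≤ K ∧ ∀ e > (0 : ℝ), ∃ s₀ : ℕ, ∀ (M : ℕ) [NeZero M] (I : Finset (Tor M)) (r : ℕ)
    (z : Tor M) (b : Fin 4) (ν : ℂ) (s : ℕ), Mk0 I r z b ν → Rgh I N r → 4 * r ≤ M → s₀ ≤ s →
    Q * (K * s) ≤ r → ∃ X : ℝ, 0 ≤ X ∧ HomR (pwI I) z s (K * s) (a * X + e) ∧
      HomSz (pwI I) z s (K * s) (C * (X + e)) ∧ ∀ (W : ℤ × ℤ → ℝ) (A : ℝ), 0 ≤ A →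
      (∀ v, zd v 0 ≤ Q * (K * s) → 0 ≤ W v ∧ (z + prj M v ∈ I → SupH W v)) → Dq W ν (K * s) A →
      ∀ t, s ≤ 2 * t + 1 → t ≤ s → Dq W ν t (c * A * (X + 1 / (K : ℝ) ^ 2)) := by
  obtain ⟨C₀, C₁, hC₀, hC₁, hX⟩ := exists_cx2
  obtain ⟨C₂, hC₂, hP⟩ := point C₀ hC₀
  obtain ⟨C₃, hC₃, hL⟩ := size C₀ hC₀
  obtain ⟨G, hG, hSl⟩ := hSl
  obtain ⟨Qm, Ql, hQm, hQl, hLo⟩ := lowb hDb hMa hLo
  obtain ⟨D, hD⟩ : ∃ D, D = (N + 1) * (4000 * Qm + 3) + 2 := ⟨_, rfl⟩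
  obtain ⟨c, c0, K₂, s₂, hLo⟩ := hLo D (2 * G + 6) (by omega) (by omega)
  have D1 : (1 : ℝ) ≤ D := by exact_mod_cast (by omega : 1 ≤ D)
  have G1 : (1 : ℝ) ≤ G := by exact_mod_cast hG
  refine ⟨N + Ql + 4, by omega, 2 * (C₃ * (C₁ * D)), ?_, c, c0, fun a a0 a1 => ?_⟩
  · linarith [one_le_mul_of_one_le_of_one_le hC₃ (one_le_mul_of_one_le_of_one_le hC₁ D1)]
  obtain ⟨H, hH⟩ : ∃ H : ℝ, H = C₂ * (C₁ * D) := ⟨_, rfl⟩
  have H0 : 0 ≤ H := by rw [hH]; positivity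
  obtain ⟨P, hP8, hP'⟩ : ∃ P : ℕ, 8 ≤ P ∧ 64 * H * G ^ 2 / a ≤ P :=
    ⟨max 8 _, le_max_left _ _, (Nat.le_ceil _).trans (Nat.cast_le.2 (le_max_right _ _))⟩
  have P0 : (0 : ℝ) < P := by exact_mod_cast (by omega : 0 < P)
  obtain ⟨H', hH'⟩ : ∃ H' : ℝ, H' = H * (2 * G * (16 * G + 4 * G * P) + 1) + 1 := ⟨_, rfl⟩
  have H1 : 1 ≤ H' := by rw [hH']; exact le_add_of_nonneg_left (by positivity)
  obtain ⟨K₁, s₁, hBh⟩ := hBh (a / 2 / H') (by positivity)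
  obtain ⟨K', hK⟩ : ∃ K', K' = (K₁ + 1) * (2 * G + 6) + K₂ := ⟨_, rfl⟩
  have K1 : 1 ≤ K' := by
    have : 0 < (K₁ + 1) * (2 * G + 6) := Nat.mul_pos (by omega) (by omega)
    omega
  refine ⟨D * K', le_trans (by omega : 2 ≤ D) (Nat.le_mul_of_pos_right _ K1), fun e e0 => ?_⟩
  obtain ⟨ρ₀, hAp⟩ := cx_app hAp C₀ hC₀ (e / H') (by positivity)
  refine ⟨s₁ + s₂ + ρ₀ + G * G + G * (32 * P) + 100, fun M _ I r z b ν s hm hR hM hs hr => ?_⟩
  obtain ⟨σ, hσ⟩ : ∃ σ, σ = G * s + G + 3 * s + 4 := ⟨_, rfl⟩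
  have σ0 : G * 1 ≤ G * s := Nat.mul_le_mul_left _ (by omega)
  have σ1 : σ + 2 ≤ (2 * G + 6) * s := by
    rw [add_mul, mul_assoc]
    omega
  obtain ⟨T', hT'⟩ : ∃ T', T' = K' * s := ⟨_, rfl⟩
  obtain ⟨ρ, hρ⟩ : ∃ ρ, ρ = Qm * T' := ⟨_, rfl⟩
  obtain ⟨T, hT⟩ : ∃ T, T = D * K' * s := ⟨_, rfl⟩
  have x0 : K₁ * (σ + 1) + (σ + 2) ≤ T' := by
    have := Nat.mul_le_mul_left (K₁ + 1) σ1
    have : K₁ * (σ + 1) ≤ K₁ * (σ + 2) := Nat.mul_le_mul_left _ (by omega)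
    rw [hT', hK]
    nlinarith [Nat.zero_le (K₂ * s)]
  have x1 : T' ≤ ρ := hρ ▸ Nat.le_mul_of_pos_left _ hQm
  have x2 : (N + 1) * (4000 * ρ + 3) + 2 ≤ T := by
    have : (N + 1) * (4000 * ρ + 3) ≤ (N + 1) * (4000 * ρ + 3 * T') :=
      Nat.mul_le_mul_left _ (by omega)
    have e : T = (N + 1) * (4000 * ρ + 3 * T') + 2 * T' := by rw [hT, hD, hρ, hT']; ring
    omega
  have x3 : N * T + Ql * T + 4 * T ≤ r := by
    rw [← add_mul, ← add_mul, hT]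
    exact hr
  have x4 : N * (4000 * ρ + 3) + (4000 * ρ + 3) = (N + 1) * (4000 * ρ + 3) := by ring
  have x5 : N * ((N + 1) * (4000 * ρ + 1)) ≤ N * T :=
    Nat.mul_le_mul_left N (le_trans (Nat.mul_le_mul_left _ (by omega)) (by omega :
      (N + 1) * (4000 * ρ + 3) ≤ T))
  obtain ⟨pr, out, y, hMd, hE, hO, hy, y1, hBc, hd⟩ := model hm (by omega)
  obtain ⟨ω, hω⟩ := hBa 1 (by norm_num) le_rfl _ ν (conL pr out ν hMd).1 hBc ρ (by omega)
  obtain ⟨X, X1, X2⟩ := exists_max ω (σ + 2) 0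
  have ω0 : ∀ x, 0 ≤ ω x := fun x => (hω.rng x).1
  have l1 := fun W A => hLo out ν y K' s ω W X A hMd.ou hy y1 hd (by omega) (by omega)
    (by rwa [← hT', ← hρ]) (by omega)
  have W0 := ω0 X
  generalize ω X = W at W0 X2 l1
  rw [← hT] at l1 ⊢
  have T0 : (0 : ℝ) < T := by exact_mod_cast (by omega : 0 < T)
  have r0 : (0 : ℝ) < ρ := by exact_mod_cast (by omega : 0 < ρ)
  have hvx : (rg I).vx z 0 0 = z := by simp [B2b2.vx_zero, P144Z.G.prj_zero]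
  have key : ∀ φ, Hom ((rg I).pw * 1) z T φ → ∃ (u w : ℤ × ℤ → ℝ) (lam : ℝ),
      Cx (rg I) 1 z (4000 * ρ) φ C₀ (C₁ / (4000 * ρ : ℕ) * l2sq (ball z T) φ) u w ∧
      |lam| ≤ C₁ / (4000 * ρ : ℕ) * l2sq (ball z T) φ ∧ ∀ v, zd v 0 ≤ σ → |u v - lam * ω v| ≤
        (a / 2 / H' * W + e / H') * (C₁ / (4000 * ρ : ℕ) * l2sq (ball z T) φ) := fun φ hφ => by
    obtain ⟨u, w, h⟩ := hX N M I r z b hR hm.rem.2 (4000 * ρ) ((N + 1) * (4000 * ρ + 3))
      (by omega) (by omega) (by omega) (by omega) (by omega) (by omega) hM φ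
      (fun t ht => hφ t (by omega)) (l2sq (ball z T) φ)
      (E3.l2sq_mono (E3.ball_mono z (by omega)) φ)
    rw [mul_div_right_comm] at h
    generalize C₁ / (4000 * ρ : ℕ) * l2sq (ball z T) φ = S at h ⊢
    have S0 := h.S0
    obtain ⟨g, g1, g2⟩ := hAp M (rg I) 1 z (1000 * ρ) φ S u w
      (by rwa [show 4 * (1000 * ρ) = 4000 * ρ by ring]) (by omega) pr out ν hMd
      fun v hv => hE v (by omega)
    have g3 := abs_le_bar hω g1 S0 fun v hv => (g2 v hv).1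
    have zy : ∀ v, zd v 0 ≤ zd v y + 1 := fun v => by
      have := GeoA.zd_tri v y 0
      omega
    obtain ⟨lam, g4, g5⟩ := hBh out ν hMd.ou y (σ + 1) ω g S W (by omega) hy
      (pos_of_bar hω (by omega)) (har_shift g1 (by omega)) S0
      (fun v hv => g3 v (by have := zy v; omega)) fun v hv => X2 v (by have := zy v; omega)
    refine ⟨u, w, lam, h, g4, fun v hv => ?_⟩
    have g6 := abs_le.1 (g2 v (by omega)).2
    have g7 := abs_le.1 (g5 v (by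
      have := GeoA.zd_tri v 0 y
      rw [GeoA.zd_comm 0] at this
      omega))
    exact abs_le.2 ⟨by linarith, by linarith⟩
  have E0 : 0 ≤ a / 2 / H' * W + e / H' := by positivity
  have k2 : H' * (a / 2 / H' * W + e / H') = a / 2 * W + e := by field_simp
  generalize a / 2 / H' * W + e / H' = E at key k2 E0
  have k3 : C₁ / (4000 * ρ : ℕ) * T ≤ C₁ * D := by
    have : (T : ℝ) ≤ D * (4000 * ρ : ℕ) := by
      have : D * T' ≤ D * (4000 * ρ) := Nat.mul_le_mul_left _ (by omega)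
      rw [hT, mul_assoc, ← hT']
      exact_mod_cast this
    rw [div_mul_eq_mul_div, div_le_iff₀ (Nat.cast_pos.2 (by omega)), mul_assoc]
    exact mul_le_mul_of_nonneg_left this (by linarith)
  refine ⟨W, W0, ?_, fun φ hφ => ?_, fun W' A hA h1 h2 => by
    simpa only [Nat.cast_mul] using l1 W' A hA (fun v hv => ⟨(h1 v (by
      rw [add_mul, add_mul]; omega)).1, fun o => (h1 v (by rw [add_mul, add_mul]; omega)).2
        ((hO v (by omega)).1 o)⟩) h2⟩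
  · obtain ⟨r₁, m₁, n1, n2, n3, n4, n5, n6, n7⟩ := nums hG hP8 (by omega : G * (32 * P) ≤ s + 1)
    have n8 : (s + 1) / G ≤ s + 1 := Nat.div_le_self _ _
    have n9 : G * (s + 1) = G * s + G := by ring
    obtain ⟨p, c1, c2, c3⟩ := hSl out ν hMd.ou y (s + 1) m₁ ω n5 n6 (by omega) hy
      (pos_of_bar hω (by omega))
    have zp := GeoA.zd_tri p y 0
    have k := hP M (rg I) 1 z (4000 * ρ) 0 p s m₁ r₁ σ T ω (C₁ / (4000 * ρ : ℕ)) W E (2 * G)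
      (by positivity) E0 (by positivity) n2 n4 n5 (by omega) (by omega)
      (fun v hv ho => c2 v (by omega) ((hE v (by
        have := GeoA.zd_tri v p 0
        omega)).2.1 ho)) (by omega) (by rw [zd_zero]; omega) ω0 (fun v hv => X2 v (by omega))
      (fun v hv => slp (by omega) (by positivity) (c3 v (by
        have := GeoA.zd_tri v 0 y
        rw [GeoA.zd_comm 0] at this
        omega)))
      (by rw [hvx]; exact key)
    rw [hvx, mul_one] at k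
    exact homR_mono k (num ((mul_le_mul_of_nonneg_left k3 (by linarith)).trans_eq hH.symm)
      ((mul_le_mul_of_nonneg_right (Nat.cast_le.2 (Nat.le_succ s)) (by positivity)).trans
        (n7 W _ W0 E0)) (by positivity) G1 P0 a0 W0 E0 H0 hP' (hH' ▸ k2))
  · have k := hL M I z _ s σ T ω _ W E (by omega) (by omega) (by omega) ω0
      (fun v hv => X2 v (by omega)) φ hφ (key φ (by rwa [mul_one]))
    refine k.trans (mul_le_mul_of_nonneg_right (mul_le_mul_of_nonneg_right ?_ (Nat.cast_nonneg _))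
      (E3.l2sq_nonneg _ _))
    have a3 : W + E ≤ 2 * (W + e) := by
      have a4 := mul_le_mul_of_nonneg_right H1 E0
      have a5 := mul_le_mul_of_nonneg_right a1 W0
      linarith
    exact (mul_le_mul (mul_le_mul_of_nonneg_left k3 (by linarith)) a3 (by positivity)
      (by positivity)).trans_eq (by ring)

end Vale.Agent.P144C.O
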