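import Vale.Agent.P144C.Defs
import Vale.Agent.P144L.R.Rk

/-!
Sign changes at corners: the model at a mark and the pair of a homogeneous solution.
-/

namespace Vale.Agent.P144C.O

open Finset Matrix Vale.Agent.P144Z Vale.Agent.P144L P144L.G P144L.R IN5a

variable {M : ℕ} {I : Finset (Tor M)} {r : ℕ} {z : Tor M} {a : Fin 4} {ν : ℂ}

/-- The model at a mark. -/
theorem model (h : Mk0 I r z a ν) (hr : 1 ≤ r) : ∃ pr out y, Md pr out ν ∧
    (∀ v, zd v 0 + 1 ≤ r → (∀ b, (rg I).pr z v b ↔ pr v b) ∧ ((rg I).out z v ↔ out v)) ∧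
    (∀ v, zd v 0 ≤ r → (¬ out v ↔ z + prj M v ∈ I)) ∧ Bp out y ∧ zd y 0 ≤ 1 ∧
    Bc (prO out) ν 0 ∧ ∀ (t D : ℕ) v, 9 * (D + 2) ≤ t → zd v (rd ν t) ≤ D → ¬ out v := by
  obtain ⟨S, hS, h1⟩ := h.cone
  have hν := h.nrm
  have up : ∀ v c d, Cn ν c → v + d ∈ S → v + c + d ∈ S := fun v c d hc o => by
    rw [add_right_comm]
    exact hS _ o c hc
  have en : ∀ k, z - prj M (cn k) ∈ I ↔ -cn k ∈ S := fun k => by
    rw [← h1 _ (by rw [G.zd_neg]; exact (G.zd_cn k).trans hr), HomDec.prj_neg, sub_eq_add_neg]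
  obtain ⟨k, hk⟩ := h.touch
  rw [en] at hk
  have ho : -cn a ∉ S := fun o => h.rem.2 ((en a).2 o)
  have c1 := fun k => G.zd_cn k
  have key : ∀ c d, Dp ν c → zd d 0 ≤ 1 → c + d ∈ S := fun c d hc hd => by
    have := hS _ hk (c + (d + cn k)) (cn_of_dp hν hc (by
      have := B1b.zd_add d (cn k)
      have := c1 k
      omega))
    rwa [show -cn k + (c + (d + cn k)) = c + d by abel] at this
  refine ⟨fun v a => v - cn (a - 1) ∈ S ∨ v - cn a ∈ S, fun v => v ∉ S, -cn a,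
    ⟨⟨hν, fun v a => ?_, fun v a c hc o => ?_⟩, ⟨hν, fun v c hc o k => o (hS v k c hc)⟩,
      fun v a o => not_or.1 o, fun x c a o hc k => ?_⟩, fun v hv => ⟨fun a => ?_, ?_⟩,
    fun v hv => by rw [not_not, h1 v hv], ⟨ho, -cn k, ?_, not_not.2 hk⟩,
    by rw [G.zd_neg]; exact c1 a, ⟨fun c b hc o => o.1 fun o' => ho ?_, fun c b hc => ⟨?_, ?_⟩⟩,
    fun t D v ht hv => not_not.2 ?_⟩
  · rw [(st4_cn v a).1, (st4_cn v a).2]
    exact or_comm
  · simp only [sub_eq_add_neg (_ : ℤ × ℤ)] at o ⊢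
    exact o.imp (up v c _ hc) (up v c _ hc)
  · have : ∀ k, x - c - cn k ∉ S := fun k o' => o (by
      simpa using hS _ o' (c + cn k) (cn_of_dp hν hc ((c1 k).trans (by norm_num))))
    exact k.elim (this _) (this _)
  · have : ∀ k, zd (v - cn k) 0 ≤ r := fun k => by
      have := B1b.zd_sub v (cn k)
      have := c1 k
      omega
    simp only [Reg.pr, h1 _ (this _), Bool.false_eq_true, if_false]
  · simp only [Reg.out, h1 v (by omega), Bool.false_eq_true, if_false]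
  · have := GeoA.zd_tri (-cn k) 0 (-cn a)
    rw [GeoA.zd_comm 0, G.zd_neg, G.zd_neg] at this
    have := c1 k
    have := c1 a
    omega
  · have := hS _ o' (c + -cn a) (cn_of_dp hν hc (by
      rw [G.zd_neg]; exact (c1 a).trans (by norm_num)))
    rwa [show 0 - c + (c + -cn a) = -cn a by abel] at this
  · simpa using key c 0 hc (by simp [zd])
  · simpa using key c _ hc (G.zd_st4 b)
  · have := hS _ hk (rd ν t + (v - rd ν t + cn k)) (cn_rd hν (D := D + 1) ht (by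
      have := B1b.zd_add (v - rd ν t) (cn k)
      rw [← G.zd_sub] at this
      have := c1 k
      omega))
    rwa [show -cn k + (rd ν t + (v - rd ν t + cn k)) = v by abel] at this

open HomDec An2 in
/-- The pair exists. -/
theorem exists_cx2 : ∃ C₀ C : ℝ, 1 ≤ C₀ ∧ 1 ≤ C ∧ ∀ (N M : ℕ) [NeZero M] (I : Finset (Tor M))
    (r : ℕ) (b : Tor M) (a : Fin 4), Rgh I N r → b - prj M (cn a) ∉ I → ∀ s₁ ρ : ℕ, 8 ≤ s₁ →
    s₁ + 2 ≤ ρ → N * (s₁ + 3) ≤ ρ → ρ ≤ r → N * ((N + 1) * (s₁ + 1)) ≤ r → 4 * s₁ ≤ r →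
    4 * r ≤ M → ∀ φ, Hom ((rg I).pw * 1) b (ρ + 2) φ → ∀ F : ℝ,
      l2sq (ball b (s₁ + 1)) φ ≤ F → ∃ u w, Cx (rg I) 1 b s₁ φ C₀ (C * F / s₁) u w := by
  obtain ⟨C₁, hC₁, H₁⟩ := exists_pair
  obtain ⟨C₂, hC₂, H₂⟩ := chi_cmp
  obtain ⟨C₃, hC₃, H₃⟩ := pair_sup
  refine ⟨C₁, C₃ * C₂, hC₁, one_le_mul_of_one_le_of_one_le hC₃ hC₂, ?_⟩
  intro N M _ I r b a hR hb s₁ ρ h8 hρ hN hr hN' h4 hM φ hφ F hA
  have hB : IsSign (1 : Gauge M) := fun _ => Or.inl rfl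
  have hF : ∀ ρ, Flat (1 : Gauge M) b ρ := fun _ _ _ => by simp [flux]
  obtain ⟨u, w, hp, he, hl⟩ := H₁ M (rg I) 1 hB b s₁ ρ hρ (by omega) (hF _)
    ((hR.conn b (s₁ + 2) (hN.trans hr)).mono' le_rfl hN) φ hφ
  have hF0 : 0 ≤ F := (l2sq_nonneg _ _).trans hA
  have hpos : (0 : ℝ) < s₁ := by exact_mod_cast (by omega : 0 < s₁)
  have hmass : ∑ x ∈ box s₁, ∑ k, (u x - w (x - cn k)) ≤ C₂ * F := by
    rw [sum_congr rfl fun x hx => sum_congr rfl fun k _ => he x k (mem_box.1 hx)]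
    refine (sum_box_le (rg I) b (by omega) (fun y k => chi φ y k ^ 2)
      fun _ _ => sq_nonneg _).trans (le_trans ?_ (mul_le_mul_of_nonneg_left hA (by linarith)))
    rw [l2sq, mul_sum]
    exact sum_le_sum fun y _ => (H₂ M φ y).2
  refine ⟨u, w, hB, by omega, hF _, fun t ht => hφ t (by omega),
    by positivity, hp, he, hl, fun v hv => ?_⟩
  rw [le_div_iff₀ hpos, le_div_iff₀ hpos, mul_assoc]
  refine H₃ s₁ u w _ _ hp h8 (fun t _ h2 => ?_) v hv _ hmass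
  obtain ⟨f, hf, hf'⟩ := contour hR hb (s := t)
    (le_trans (Nat.mul_le_mul_left _ (Nat.mul_le_mul_left _ (by omega))) hN') (by omega)
  obtain ⟨x, hx, rfl⟩ := exists_fc (rg I) (b - prj M (cn a)) f
  refine ⟨x, a, hx.trans hf', out_of fun o => hf ?_⟩
  simp only [fc, Bool.false_eq_true, if_false] at o ⊢
  rwa [G.prj_sub, ← add_sub_assoc, add_sub_right_comm] at o

/-- Change of the field of reference. -/
theorem swap2 [NeZero M] {B : Finset (Tor M)} {U v w : Tor M × Fin 4 → ℝ} {t t' X c ε : ℝ}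
    (hw : l2sq B w ≤ c * X) (h1 : l2sq B (w - t • v) ≤ ε * X)
    (h2 : l2sq B (U - t' • v) ≤ ε * l2sq B U) (h3 : 0 ≤ ε) (h4 : ε ≤ 1 / 4) (h5 : 0 < l2sq B U) :
    ∃ t'' : ℝ, l2sq B (w - t'' • U) ≤ (2 * ε + 16 * ε * (c + ε)) * X := by
  have e : ∀ g, hsq (1 : Gauge M) 0 B g = l2sq B g := fun g => by simp [hsq, sum_range_succ]
  simp only [← e] at *
  exact IN4.swap hw h1 h2 h3 h4 h5

end Vale.Agent.P144C.O
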