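import Vale.Agent.P144C.O.Core
import Vale.Agent.P144E.An1.Hol

/-!
Sign changes at corners: the passage to the rough model and the positive solution at all scales.
-/

namespace Vale.Agent.P144C.O

open Finset Matrix Vale.Agent.P144Z Vale.Agent.P144L P144L.G P144L.R IN5a

section

variable {M : ℕ} [NeZero M] {I I' : Finset (Tor M)} {z : Tor M} {r R R' : ℕ} {a : Fin 4} {ν : ℂ}
  {φ : Tor M × Fin 4 → ℝ} {U W : ℤ × ℤ → ℝ}

theorem hom_congr (h : ∀ f, tdist f z ≤ r → (f ∈ I' ↔ f ∈ I)) (hR : R + 2 ≤ r)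
    (hφ : Hom (pwI I) z R φ) : Hom (pwI I') z R φ := fun t ht => by
  have := W.Dm_pow_congr (A := pwI I') (A' := pwI I) (z := z) φ 1 R (fun e he => by
    rw [IConv.pwI_eq, IConv.pwI_eq]
    exact if_congr (or_congr (h _ (by omega))
      (h _ ((E1.near_sub _ _ _).trans (by omega)))) rfl rfl) t.1 t.2 ht
  rw [pow_one, pow_one] at this
  exact this.trans (hφ t ht)

theorem PP.mono (h : PP I z R φ U W) (hR : R' ≤ R) : PP I z R' φ U W :=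
  ⟨fun v k hv => h.dif v k (by omega), fun v hv => h.nn v (by omega),
    fun v hv => h.zero v (by omega), fun v hv => h.sup v (by omega),
    fun v hv => h.sub v (by omega), fun t ht => h.hom t (by omega)⟩

theorem PP.congr (h : ∀ f, tdist f z ≤ r → (f ∈ I' ↔ f ∈ I)) (hR : R + 2 ≤ r)
    (hp : PP I z R φ U W) : PP I' z R φ U W := by
  have k : ∀ v, zd v 0 ≤ R + 1 → (z + prj M v ∈ I' ↔ z + prj M v ∈ I) := fun v hv =>
    h _ ((GeoA.tdist_le_zd z v).trans (by omega))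
  refine ⟨hp.dif, hp.nn, fun v hv o => hp.zero v hv fun o' => o ((k v hv).2 o'),
    fun v hv o => hp.sup v hv ((k v (by omega)).1 o), fun v hv => ?_, hom_congr h hR hp.hom⟩
  have e : ∀ b, GG U ((rg I').pr z) v b = GG U ((rg I).pr z) v b := fun b => by
    have z1 : ∀ j, zd (v - cn j) 0 ≤ R + 1 := fun j => by
      have := B1b.zd_sub v (cn j)
      have := G.zd_cn j
      omega
    have e : (rg I').pr z v b = (rg I).pr z v b := by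
      rw [pr_iff, pr_iff, k _ (z1 _), k _ (z1 _)]
    unfold GG
    rw [e]
  simp only [e]
  exact hp.sub v hv

theorem Mk0.congr {r' : ℕ} (h : ∀ f, tdist f z ≤ r' → (f ∈ I' ↔ f ∈ I)) (h1 : 1 ≤ r')
    (h2 : r' ≤ r) (hm : Mk0 I r z a ν) : Mk0 I' r' z a ν := by
  have k : ∀ j, z - prj M (cn j) ∈ I' ↔ z - prj M (cn j) ∈ I := fun j => h _ (by
    have := GeoA.tdist_le_zd z (-cn j)
    rw [HomDec.prj_neg, ← sub_eq_add_neg, G.zd_neg] at this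
    exact this.trans ((G.zd_cn j).trans h1))
  obtain ⟨S, hS, h3⟩ := hm.cone
  exact ⟨hm.nrm, ⟨S, hS, fun v hv => (h _ ((GeoA.tdist_le_zd z v).trans hv)).trans
    (h3 v (hv.trans h2))⟩, ⟨fun o => hm.rem.1 ((k _).1 o), fun o => hm.rem.2 ((k _).1 o)⟩,
    hm.touch.imp fun j o => (k j).2 o⟩

/-- The conclusion of `OneM`. -/
def Stp (I : Finset (Tor M)) (z : Tor M) (ν : ℂ) (φ₀ : Tor M × Fin 4 → ℝ) (Q K s : ℕ)
    (C η : ℝ) : Prop :=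
  (∀ φ, Hom (pwI I) z (K * s) φ →
    l2 z φ s * l2 z φ₀ (K * s) ≤ C * l2 z φ₀ s * l2 z φ (K * s) ∧ ∃ t : ℝ,
      l2 z (φ - t • φ₀) s * l2 z φ₀ (K * s) ≤ η * l2 z φ₀ s * l2 z φ (K * s)) ∧
  ∀ (W : ℤ × ℤ → ℝ) (A : ℝ), 0 ≤ A →
    (∀ v, zd v 0 ≤ Q * (K * s) → 0 ≤ W v ∧ (z + prj M v ∈ I → SupH W v)) → Dq W ν (K * s) A →
      ∃ A', Dq W ν s A' ∧ A * K * l2 z φ₀ s ≤ C * A' * l2 z φ₀ (K * s)

theorem Stp.smul {Q K s : ℕ} {C η τ : ℝ} (h : Stp I z ν φ Q K s C η) (hτ : τ ≠ 0) :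
    Stp I z ν (τ • φ) Q K s C η := by
  have t0 := sq_nonneg τ
  refine ⟨fun ψ hψ => ?_, fun W A h1 h2 h3 => (h.2 W A h1 h2 h3).imp fun A' k => ⟨k.1, ?_⟩⟩
  · obtain ⟨k1, t, k2⟩ := h.1 ψ hψ
    refine ⟨?_, t / τ, ?_⟩
    · simp only [l2, E4.l2sq_smul] at k1 ⊢
      linarith [mul_le_mul_of_nonneg_left k1 t0]
    · rw [smul_smul, div_mul_cancel₀ _ hτ]
      simp only [l2, E4.l2sq_smul] at k2 ⊢
      linarith [mul_le_mul_of_nonneg_left k2 t0]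
  · have k1 := k.2
    simp only [l2, E4.l2sq_smul] at k1 ⊢
    linarith [mul_le_mul_of_nonneg_left k1 t0]

end

theorem scales {Qm Q T r : ℕ} (hQm : 1 ≤ Qm) (hT : 1 ≤ T) (h : Qm * (Q + 2) * T ≤ r) :
    Q * T + 2 ≤ r / Qm ∧ Qm ≤ r ∧ r / Qm ≤ r := by
  have h1 : Qm * (Q * T + 2) ≤ r := by
    refine le_trans ?_ h
    rw [mul_assoc]
    exact Nat.mul_le_mul_left _ (by rw [add_mul]; omega)
  exact ⟨(Nat.le_div_iff_mul_le hQm).2 (by rwa [mul_comm]),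
    (Nat.le_mul_of_pos_right _ (by omega)).trans h1, Nat.div_le_self _ _⟩

/-- `OneM` at a mark. -/
theorem one2 (hMo : ModM) (hO : OneM) (N : ℕ) : ∃ Q : ℕ, 1 ≤ Q ∧ ∀ γ > (0 : ℝ), ∃ C : ℝ, 1 ≤ C ∧
    ∀ η > (0 : ℝ), ∃ K s₀ : ℕ, 2 ≤ K ∧ ∀ (M : ℕ) [NeZero M] (I : Finset (Tor M)) (r : ℕ)
    (z : Tor M) (a : Fin 4) (ν : ℂ) (s : ℕ) φ₀ U₀ W₀ (A₀ : ℝ), MkT2 I N r z a ν →
    64 * (tdist z 0 + r) ≤ M → s₀ ≤ s → Q * (K * s) ≤ r → PP I z (Q * (K * s)) φ₀ U₀ W₀ →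
    0 < A₀ → Dq W₀ ν (K * s) A₀ → γ * l2 z φ₀ (K * s) ≤ K * s * A₀ → Stp I z ν φ₀ Q K s C η := by
  obtain ⟨N', Qm, hQm, hMo⟩ := hMo N
  obtain ⟨Q, hQ, hO⟩ := hO N'
  refine ⟨Qm * (Q + 2), Nat.mul_pos hQm (by omega), fun γ γ0 => (hO γ γ0).imp fun C h =>
    ⟨h.1, fun η η0 => ?_⟩⟩
  obtain ⟨K, s₀, hK, h⟩ := h.2 η η0
  refine ⟨K, s₀ + 1, hK, fun M _ I r z a ν s φ₀ U₀ W₀ A₀ hm hM hs hr hp A0 hq hγ => ?_⟩
  have x0 : 1 ≤ K * s := Nat.mul_pos (by omega) (by omega)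
  obtain ⟨x1, x2, x3⟩ := scales hQm x0 hr
  have x4 : K * s ≤ Q * (K * s) := Nat.le_mul_of_pos_left _ hQ
  have x5 : Q * (K * s) ≤ Qm * (Q + 2) * (K * s) :=
    Nat.mul_le_mul_right _ ((by omega : Q ≤ Q + 2).trans (Nat.le_mul_of_pos_left _ hQm))
  obtain ⟨I', h1, -, -, -, h2⟩ := hMo M I r z a ν hm x2 hM
  obtain ⟨k1, k2⟩ := h M I' (r / Qm) z a ν s φ₀ U₀ W₀ A₀ (Mk0.congr h2 (by omega) x3 hm.toMk0) h1
    (by omega) (by omega) (by omega) (PP.congr h2 x1 (PP.mono hp x5)) A0 hq hγ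
  exact ⟨fun φ hφ => k1 φ (hom_congr h2 (by omega) hφ), fun W A hA hW => k2 W A hA fun v hv =>
    ⟨(hW v (by omega)).1, fun o => (hW v (by omega)).2
      ((h2 _ ((GeoA.tdist_le_zd z v).trans (by omega))).1 o)⟩⟩

/-- The decay of the homogeneous solutions at a mark. -/
theorem dec2 (hMo : ModM) (N : ℕ) : ∃ Q : ℕ, ∀ η > (0 : ℝ), ∃ K : ℕ, ∀ (M : ℕ) [NeZero M]
    (I : Finset (Tor M)) (r : ℕ) (z : Tor M) (a : Fin 4) (ν : ℂ) (s σ : ℕ) φ, MkT2 I N r z a ν →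
    64 * (tdist z 0 + r) ≤ M → 8 ≤ s → K * s ≤ σ → Q * σ ≤ r → Hom (pwI I) z σ φ →
      l2 z φ s * σ ≤ η * s * l2 z φ σ := by
  obtain ⟨N', Qm, hQm, hMo⟩ := hMo N
  obtain ⟨c, β, hc, hβ, -, Q, hD⟩ := decH_of holS N'
  refine ⟨Qm * (Q + 1 + 2), fun η η0 => ?_⟩
  obtain ⟨τ, τ0, hτ⟩ : ∃ τ : ℝ, 0 < τ ∧ τ ^ β = η / (4 * c ^ 2) :=
    ⟨(η / (4 * c ^ 2)) ^ β⁻¹, by positivity, Real.rpow_inv_rpow (by positivity) hβ.ne'⟩
  obtain ⟨K, hK⟩ := exists_nat_ge (4 / τ)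
  refine ⟨K + 2, fun M _ I r z a ν s σ φ hm hM hs h1 h2 hφ => ?_⟩
  rw [add_mul] at h1
  obtain ⟨x1, x2, x3⟩ := scales hQm (by omega) h2
  rw [add_mul, one_mul] at x1
  obtain ⟨I', k1, -, -, -, k2⟩ := hMo M I r z a ν hm x2 hM
  have hb := GeoA.tdist_le_zd z (-cn a)
  rw [HomDec.prj_neg, ← sub_eq_add_neg, G.zd_neg] at hb
  replace hb := hb.trans (G.zd_cn a)
  have m0 := (Mk0.congr k2 (by omega) x3 hm.toMk0).rem.2
  generalize z - prj M (cn a) = b at hb m0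
  have k3 := (hD M (rg I') 1 (r / Qm) b (fun _ => Or.inl rfl) k1 (by omega) m0 (σ - 1)
    (by rw [Nat.sub_add_cancel (by omega)]; omega) (fun _ _ => by simp [flux])).1 (s + 1) (σ - 1)
    (by omega) (by omega) le_rfl φ (by
      rw [mul_one]
      intro t ht
      refine hom_congr k2 (R := σ) (by omega) hφ t ?_
      have := tdist_triangle t.1 b z
      omega)
  have k4 : l2 z φ s ≤ l2sq (ball b (s + 1)) φ := E3.l2sq_mono (fun x hx => by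
    have h1 := tdist_triangle x z b
    have h2 := E3.mem_ball.1 hx
    rw [tdist_comm z b] at h1
    exact E3.mem_ball.2 (by omega)) φ
  have k5 : l2sq (ball b (σ - 1)) φ ≤ l2 z φ σ := E3.l2sq_mono (fun x hx => by
    have h1 := tdist_triangle x b z
    have h2 := E3.mem_ball.1 hx
    exact E3.mem_ball.2 (by omega)) φ
  have σ0 : (0 : ℝ) < σ := by exact_mod_cast (by omega : 0 < σ)
  have s0 : (0 : ℝ) < s := by exact_mod_cast (by omega : 0 < s)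
  have e1 : ((s + 1 : ℕ) : ℝ) / (σ - 1 : ℕ) ≤ 4 * s / σ := by
    rw [div_le_div_iff₀ (Nat.cast_pos.2 (by omega)) σ0]
    have : (s + 1) * σ ≤ (2 * s) * (2 * (σ - 1)) := Nat.mul_le_mul (by omega) (by omega)
    calc _ ≤ ((2 * s * (2 * (σ - 1)) : ℕ) : ℝ) := by exact_mod_cast this
      _ = _ := by push_cast; ring
  have e2 : 4 * s / σ ≤ τ := by
    have : (K : ℝ) * s ≤ σ := by exact_mod_cast (by omega : K * s ≤ σ)
    rw [div_le_iff₀ τ0] at hK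
    rw [div_le_iff₀ σ0]
    nlinarith
  have e3 : (((s + 1 : ℕ) : ℝ) / (σ - 1 : ℕ)) ^ (1 + β) ≤ 4 * s / σ * (η / (4 * c ^ 2)) := by
    refine (Real.rpow_le_rpow (by positivity) e1 (by linarith)).trans ?_
    rw [Real.rpow_add (by positivity), Real.rpow_one, ← hτ]
    exact mul_le_mul_of_nonneg_left (Real.rpow_le_rpow (by positivity) e2 hβ.le) (by positivity)
  rw [← le_div_iff₀ σ0]
  refine (k4.trans k3).trans ((mul_le_mul (mul_le_mul_of_nonneg_left e3 (sq_nonneg c)) k5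
    (E3.l2sq_nonneg _ _) (by positivity)).trans_eq ?_)
  field_simp

/-- `LowM` at a mark. -/
theorem lowI (hLo : LowM) : ∃ Q ρ₀ : ℕ, ∃ c > (0 : ℝ), 1 ≤ Q ∧ ∀ (M : ℕ) (I : Finset (Tor M))
    (r : ℕ) (z : Tor M) (a : Fin 4) (ν : ℂ) (ρ : ℕ) (W : ℤ × ℤ → ℝ) (A : ℝ), Mk0 I r z a ν →
    Q * ρ ≤ r → 0 ≤ A → (∀ v, zd v 0 ≤ Q * ρ → 0 ≤ W v ∧ (z + prj M v ∈ I → SupH W v)) →
    Dq W ν ρ A → ∀ s : ℕ, ρ₀ ≤ s → s ≤ ρ → Dq W ν s (c * A * ((s : ℝ) / ρ) ^ 2) := by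
  obtain ⟨Q, ρ₀, c, c0, hQ, h⟩ := hLo
  refine ⟨Q, ρ₀ + 1, c, c0, hQ, fun M I r z a ν ρ W A hm hr hA hW hq s h1 h2 => ?_⟩
  have : ρ ≤ Q * ρ := Nat.le_mul_of_pos_left _ hQ
  obtain ⟨pr, out, y, hMd, -, hO, hy, y1, -⟩ := model hm (by omega)
  exact h out ν y ρ W A hMd.ou hy y1 hA (fun v hv => ⟨(hW v hv).1, fun o =>
    (hW v hv).2 ((hO v (by omega)).1 o)⟩) hq s (by omega) h2

/-- The lower bound on the norm at a smaller scale. -/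
theorem lowN (hLo : LowM) (hNr : NrmM) : ∃ Q ρ₀ : ℕ, ∃ C : ℝ, 1 ≤ C ∧ 1 ≤ Q ∧ ∀ (M : ℕ) [NeZero M]
    (I : Finset (Tor M)) (r : ℕ) (z : Tor M) (a : Fin 4) (ν : ℂ) (σ : ℕ) φ U W (A : ℝ),
    Mk0 I r z a ν → Q * σ ≤ r → 2 * r < M → PP I z (Q * σ) φ U W → 0 ≤ A → Dq W ν σ A →
    ∀ s : ℕ, ρ₀ ≤ s → s ≤ σ → A * (s : ℝ) ^ 3 ≤ C * (σ : ℝ) ^ 2 * l2 z φ s := by
  obtain ⟨Q, ρ₀, c, c0, hQ, h⟩ := lowI hLo
  obtain ⟨Cn, ρn, hCn, hNr⟩ := hNr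
  obtain ⟨_, -, hNr⟩ := hNr ρn le_rfl
  refine ⟨Q + 2, 2 * (ρ₀ + ρn + 1), 27 * Cn / c + 1, le_add_of_nonneg_left (by positivity),
    by omega, fun M _ I r z a ν σ φ U W A hm hr hM hp hA hq s h1 h2 => ?_⟩
  rw [add_mul] at hr hp
  have σ0 : (0 : ℝ) < σ := by exact_mod_cast (by omega : 0 < σ)
  have k1 := ((hNr M I r _ z a ν φ U W hm hp hr (by omega) _).1 (s / 2) (by omega) (by omega)).1
    (by positivity) (h M I r z a ν σ W A hm (by omega) hA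
      (fun v hv => ⟨hp.nn v (by omega), hp.sup v (by omega)⟩) hq _ (by omega) (by omega))
  have k2 : l2 z φ (2 * (s / 2)) ≤ l2 z φ s := E3.l2sq_mono (E3.ball_mono z (by omega)) _
  have e1 : (s : ℝ) ≤ 3 * (s / 2 : ℕ) := by exact_mod_cast (by omega : s ≤ 3 * (s / 2))
  generalize ((s / 2 : ℕ) : ℝ) = t at k1 e1
  have e2 := mul_le_mul_of_nonneg_left (pow_le_pow_left₀ (Nat.cast_nonneg _) e1 3) hA
  have e3 : t * (c * A * (t / σ) ^ 2) = c * (A * t ^ 3) / σ ^ 2 := by ring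
  rw [e3, div_le_iff₀ (by positivity)] at k1
  have e4 := mul_le_mul_of_nonneg_right (mul_le_mul_of_nonneg_left k2 (by linarith : 0 ≤ Cn))
    (sq_nonneg (σ : ℝ))
  have e5 : A * t ^ 3 ≤ Cn / c * (σ ^ 2 * l2 z φ s) := by
    rw [div_mul_eq_mul_div, le_div_iff₀ c0]
    linarith
  have e6 := mul_nonneg (sq_nonneg (σ : ℝ)) (E3.l2sq_nonneg (ball z s) φ)
  have e7 : (27 * Cn / c + 1) * (σ : ℝ) ^ 2 * l2 z φ s =
      27 * (Cn / c * (σ ^ 2 * l2 z φ s)) + σ ^ 2 * l2 z φ s := by ring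
  linarith

/-- The positive solution is nondegenerate at all scales. -/
theorem nd (hLo : LowM) (hNr : NrmM) (hNd : NdM) (hRf : RefM) (N n : ℕ) : ∃ Q ρ₀ : ℕ,
    ∃ γ > (0 : ℝ), n ≤ Q ∧ ∀ s₀ ≥ ρ₀, ∃ c > (0 : ℝ), ∀ (M : ℕ) [NeZero M] (I : Finset (Tor M))
    (r : ℕ) (z : Tor M) (a : Fin 4) (ν : ℂ) (ρ : ℕ), MkT2 I N r z a ν →
    64 * (tdist z 0 + r) ≤ M → s₀ ≤ ρ → Q * ρ ≤ r → ∃ φ U W, PP I z (n * ρ) φ U W ∧
      (∀ s, ρ₀ ≤ s → s ≤ ρ → ∃ A > (0 : ℝ), Dq W ν s A ∧ γ * l2 z φ s ≤ s * A) ∧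
      ∀ A, Dq W ν s₀ A → c * A ≤ φ (z, a) ^ 2 := by
  obtain ⟨Ql, ρl, cl, cl0, hQl, hLo⟩ := lowI hLo
  obtain ⟨Cn, ρn, hCn, hNr⟩ := hNr
  obtain ⟨Qd, ρd, cd, cd0, hQd, hNd⟩ := hNd
  obtain ⟨Q, ρ₀, γ, γ0, γ1, hRf⟩ := hRf N (n + Ql + Qd + 20)
  refine ⟨Q + (n + Ql + Qd + 20), ρl + ρn + ρd + ρ₀ + 1, cd * γ / Cn, by positivity, by omega,
    fun s₀ hs₀ => ?_⟩
  obtain ⟨c, c0, hNr⟩ := hNr s₀ (by omega)
  refine ⟨c, c0, fun M _ I r z a ν ρ hm hM h1 h2 => ?_⟩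
  rw [add_mul] at h2
  obtain ⟨φ, U, W, A, A0, k1, k2, k3⟩ := hRf M I r z a ν hm hM ρ (by omega) (by omega)
  have x1 : (n + Ql + Qd + 20) * ρ = n * ρ + Ql * ρ + Qd * ρ + 20 * ρ := by ring
  have k4 := hNr M I r _ z a ν φ U W hm.toMk0 k1 (by omega) (by omega)
  refine ⟨φ, U, W, PP.mono k1 (by omega), fun s h3 h4 => ?_, fun A' => (k4 A').2 (by omega)⟩
  obtain ⟨A', k5, k6⟩ := hNd M I r _ z a ν φ U W hm.toMk0 k1 (by omega) (by omega) ρ γ A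
    (by omega) γ0 γ1 k2 (fun v hv => k3 v (by omega)) s (by omega) h4
  have k7 := hLo M I r z a ν ρ W A hm.toMk0 (by omega) A0.le
    (fun v hv => ⟨k1.nn v (by omega), k1.sup v (by omega)⟩) k2 s (by omega) h4
  have k8 := ((k4 (A' / (cd * γ))).1 s (by omega) (by omega)).2 fun v hv => by
    rw [le_div_iff₀ (by positivity), mul_comm]
    exact k6 v hv
  have s0 : (0 : ℝ) < s := by exact_mod_cast (by omega : 0 < s)
  have r0 : (0 : ℝ) < ρ := by exact_mod_cast (by omega : 0 < ρ)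
  refine ⟨max A' _, lt_max_of_lt_right (by positivity), fun v hv => max_le (k5 v hv) (k7 v hv),
    ((mul_le_mul_of_nonneg_left k8 (by positivity)).trans_eq (by field_simp)).trans
      (mul_le_mul_of_nonneg_left (le_max_left _ _) s0.le)⟩

end Vale.Agent.P144C.O
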